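import Mathlib

/-! Second symmetric differences of `exp` and `negMulLog`. -/

set_option autoImplicit false

namespace Crest.Agent.R304E

open Filter Topology Real

lemma tendsto_of_cubic (f : ℝ → ℝ) (a C : ℝ)
    (h : ∀ᶠ t in 𝓝[>] (0 : ℝ), |f t - a * t ^ 2| ≤ C * t ^ 3) :
    Tendsto (fun t => f t / t ^ 2) (𝓝[>] 0) (𝓝 a) := by
  rw [tendsto_iff_norm_sub_tendsto_zero]
  have h0 : Tendsto (fun t : ℝ => C * t) (𝓝[>] 0) (𝓝 0) := by
    have : Tendsto (fun t : ℝ => C * t) (𝓝 0) (𝓝 (C * 0)) :=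
      (continuous_const.mul continuous_id).tendsto 0
    simpa using this.mono_left nhdsWithin_le_nhds
  refine squeeze_zero' (Eventually.of_forall fun _ => norm_nonneg _) ?_ h0
  filter_upwards [h, self_mem_nhdsWithin] with t ht htp
  have htp' : 0 < t := htp
  have e : f t / t ^ 2 - a = (f t - a * t ^ 2) / t ^ 2 := by field_simp
  rw [Real.norm_eq_abs, e, abs_div, abs_of_pos (pow_pos htp' 2), div_le_iff₀ (pow_pos htp' 2)]
  calc _ ≤ C * t ^ 3 := ht
    _ = _ := by ring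

lemma ev_small (g δ : ℝ) (hδ : 0 < δ) : ∀ᶠ t in 𝓝[>] (0 : ℝ), |t * g| ≤ δ := by
  have : Tendsto (fun t : ℝ => |t * g|) (𝓝 0) (𝓝 |0 * g|) :=
    ((continuous_id.mul continuous_const).abs).tendsto 0
  simp only [zero_mul, abs_zero] at this
  exact (this.mono_left nhdsWithin_le_nhds).eventually (ge_mem_nhds hδ)

lemma exp_sd (u : ℝ) (hu : |u| ≤ 1) : |exp u + exp (-u) - 2 - u ^ 2| ≤ |u| ^ 3 := by
  have h1 := Real.exp_bound hu (n := 3) (by norm_num)
  have h2 := Real.exp_bound (x := -u) (by rwa [abs_neg]) (n := 3) (by norm_num)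
  simp only [Finset.sum_range_succ, Finset.sum_range_zero, Nat.factorial, abs_neg] at h1 h2
  norm_num at h1 h2
  have h3 : 0 ≤ |u| ^ 3 := by positivity
  rw [abs_le] at h1 h2 ⊢
  constructor <;> nlinarith [h1.1, h1.2, h2.1, h2.2]

lemma tendsto_exp_sd (g : ℝ) :
    Tendsto (fun t => (exp (t * g) + exp (-(t * g)) - 2) / t ^ 2) (𝓝[>] 0) (𝓝 (g ^ 2)) := by
  refine tendsto_of_cubic _ _ (|g| ^ 3) ?_
  filter_upwards [ev_small g 1 one_pos, self_mem_nhdsWithin] with t ht htp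
  have htp' : 0 < t := htp
  have := exp_sd (t * g) ht
  rw [abs_mul, abs_of_pos htp'] at this
  calc _ = |exp (t * g) + exp (-(t * g)) - 2 - (t * g) ^ 2| := by congr 1; ring
    _ ≤ _ := this
    _ = _ := by ring

lemma log_cubic (u : ℝ) (hu : |u| ≤ 1 / 2) : |u + u ^ 2 / 2 + log (1 - u)| ≤ 2 * |u| ^ 3 := by
  have h := Real.abs_log_sub_add_sum_range_le (x := u) (by linarith) 2
  simp only [Finset.sum_range_succ, Finset.sum_range_zero] at h
  norm_num at h
  refine h.trans ?_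
  rw [div_le_iff₀ (by linarith)]
  have h3 : 0 ≤ |u| ^ 3 := by positivity
  nlinarith

lemma nml_sd (u : ℝ) (hu : |u| ≤ 1 / 2) :
    |negMulLog (1 + u) + negMulLog (1 - u) + u ^ 2| ≤ 4 * |u| ^ 3 := by
  have h1 := log_cubic u hu
  have h2 := log_cubic (-u) (by rwa [abs_neg])
  rw [abs_neg, sub_neg_eq_add] at h2
  have hu' := abs_le.1 hu
  have e : negMulLog (1 + u) + negMulLog (1 - u) + u ^ 2 =
      -((1 + u) * (-u + (-u) ^ 2 / 2 + log (1 + u)) + (1 - u) * (u + u ^ 2 / 2 + log (1 - u))) := by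
    simp only [negMulLog]; ring
  rw [e, abs_neg]
  refine (abs_add_le _ _).trans ?_
  rw [abs_mul, abs_mul, abs_of_nonneg (by linarith : (0 : ℝ) ≤ 1 + u),
    abs_of_nonneg (by linarith : (0 : ℝ) ≤ 1 - u)]
  have a1 := mul_le_mul_of_nonneg_left h2 (by linarith : (0 : ℝ) ≤ 1 + u)
  have a2 := mul_le_mul_of_nonneg_left h1 (by linarith : (0 : ℝ) ≤ 1 - u)
  linarith

lemma tendsto_nml_sd (y h : ℝ) (hy : 0 < y) :
    Tendsto (fun t => (negMulLog (y + t * h) + negMulLog (y - t * h) - 2 * negMulLog y) / t ^ 2)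
      (𝓝[>] 0) (𝓝 (-(h ^ 2 / y))) := by
  refine tendsto_of_cubic _ _ (y * (4 * |h / y| ^ 3)) ?_
  filter_upwards [ev_small (h / y) (1 / 2) (by norm_num), self_mem_nhdsWithin] with t ht htp
  have htp' : 0 < t := htp
  have := nml_sd (t * (h / y)) ht
  have e1 : y + t * h = y * (1 + t * (h / y)) := by field_simp
  have e2 : y - t * h = y * (1 - t * (h / y)) := by field_simp
  have e : negMulLog (y + t * h) + negMulLog (y - t * h) - 2 * negMulLog y - -(h ^ 2 / y) * t ^ 2 =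
      y * (negMulLog (1 + t * (h / y)) + negMulLog (1 - t * (h / y)) + (t * (h / y)) ^ 2) := by
    rw [e1, e2, negMulLog_mul, negMulLog_mul]; field_simp; ring
  rw [e, abs_mul, abs_of_pos hy]
  rw [abs_mul, abs_of_pos htp'] at this
  calc _ ≤ y * (4 * (t * |h / y|) ^ 3) := mul_le_mul_of_nonneg_left this hy.le
    _ = _ := by ring

end Crest.Agent.R304E
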