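import Mathlib
import Crest.Prelude.Def_MatchingPolytope

/-! Row 304, entropy part (S0465): interface. -/

set_option autoImplicit false

namespace Crest.Agent.R304E

open Crest.Matchings

/-- The support/dimension count of S0466 after removing the edges with `x e = 1`. -/
def RankStmt : Prop :=
  ∀ (m k : ℕ) (ends : Fin k → Fin (2 * m) × Fin (2 * m)), (∀ e, (ends e).1 ≠ (ends e).2) →
    ∀ x : Fin k → ℝ, x ∈ pmPolytope ends → (∃ e, 0 < x e ∧ x e < 1) →
      ((Finset.univ.filter fun e => 0 < x e ∧ x e < 1).card : ℤ) - (pmFaceDim ends x : ℤ) ≤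
        3 * ((m : ℤ) - ((Finset.univ.filter fun e => x e = 1).card : ℤ)) - 2

end Crest.Agent.R304E
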