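import Crest.Agent.R304E.Defs

/-! Laws on perfect matchings, maximum entropy laws. -/

set_option autoImplicit false

namespace Crest.Agent.R304E

open Crest.Matchings Finset Filter Topology Real

variable {v k : ℕ} {ends : Fin k → Fin v × Fin v}

lemma marg_eq (p : Finset (Fin k) → ℝ) (e : Fin k) :
    marginal p e = ∑ M, p M * pmIndicator M e := by
  unfold marginal pmIndicator
  rw [sum_filter]
  exact sum_congr rfl fun M _ => by split_ifs <;> simp

lemma cont_marg (e : Fin k) : Continuous fun p : Finset (Fin k) → ℝ => marginal p e := by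
  unfold marginal; fun_prop

lemma cont_ent : Continuous fun p : Finset (Fin k) → ℝ => lawEntropy p := by
  unfold lawEntropy; fun_prop

lemma law_le_one {p : Finset (Fin k) → ℝ} (hp : IsMatchingLaw ends p) (M : Finset (Fin k)) :
    p M ≤ 1 := hp.2.1 ▸ single_le_sum (fun N _ => hp.1 N) (mem_univ M)

lemma ind_nonneg (M : Finset (Fin k)) (e : Fin k) : 0 ≤ pmIndicator M e := by
  unfold pmIndicator; split_ifs <;> norm_num

lemma ind_le_one (M : Finset (Fin k)) (e : Fin k) : pmIndicator M e ≤ 1 := by
  unfold pmIndicator; split_ifs <;> norm_num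

lemma ind_sq (M : Finset (Fin k)) (e : Fin k) : pmIndicator M e ^ 2 = pmIndicator M e := by
  unfold pmIndicator; split_ifs <;> norm_num

lemma marg_nonneg {p : Finset (Fin k) → ℝ} (hp : IsMatchingLaw ends p) (e : Fin k) :
    0 ≤ marginal p e := sum_nonneg fun M _ => hp.1 M

lemma marg_le_one {p : Finset (Fin k) → ℝ} (hp : IsMatchingLaw ends p) (e : Fin k) :
    marginal p e ≤ 1 :=
  hp.2.1 ▸ sum_le_sum_of_subset_of_nonneg (filter_subset _ _) fun M _ _ => hp.1 M

lemma ent_nonneg {p : Finset (Fin k) → ℝ} (hp : IsMatchingLaw ends p) : 0 ≤ lawEntropy p :=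
  sum_nonneg fun M _ => negMulLog_nonneg (hp.1 M) (law_le_one hp M)

lemma closed_law : IsClosed {p : Finset (Fin k) → ℝ | IsMatchingLaw ends p} := by
  have e : {p : Finset (Fin k) → ℝ | IsMatchingLaw ends p} =
      (⋂ M, {p | 0 ≤ p M}) ∩ ({p | ∑ M, p M = 1} ∩
        ⋂ M ∈ {M | ¬ IsPerfectMatching ends M}, {p | p M = 0}) := by
    ext p
    simp only [IsMatchingLaw, Set.mem_ofPred_eq, Set.mem_inter_iff, Set.mem_iInter]
    refine and_congr_right fun _ => and_congr_right fun _ => forall_congr' fun M => ?_
    tauto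
  rw [e]
  refine (isClosed_iInter fun M => isClosed_le continuous_const (continuous_apply M)).inter
    ((isClosed_eq (by fun_prop) continuous_const).inter
      (isClosed_biInter fun M _ => isClosed_eq (continuous_apply M) continuous_const))

lemma compact_law : IsCompact {p : Finset (Fin k) → ℝ | IsMatchingLaw ends p} :=
  (isCompact_Icc (a := (0 : Finset (Fin k) → ℝ)) (b := 1)).of_isClosed_subset closed_law
    fun _ hp => ⟨hp.1, law_le_one hp⟩

/-- maximum entropy among the laws with the same marginals -/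
def MaxE (ends : Fin k → Fin v × Fin v) (p : Finset (Fin k) → ℝ) : Prop :=
  IsMatchingLaw ends p ∧ ∀ q, IsMatchingLaw ends q → (∀ e, marginal q e = marginal p e) →
    lawEntropy q ≤ lawEntropy p

lemma exists_maxE {p : Finset (Fin k) → ℝ} (hp : IsMatchingLaw ends p) :
    ∃ q, MaxE ends q ∧ ∀ e, marginal q e = marginal p e := by
  have hc : IsCompact ({q : Finset (Fin k) → ℝ | IsMatchingLaw ends q} ∩
      ⋂ e, {q | marginal q e = marginal p e}) :=
    compact_law.inter_right (isClosed_iInter fun e => isClosed_eq (cont_marg e) continuous_const)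
  obtain ⟨q, hq, hmax⟩ := hc.exists_isMaxOn ⟨p, hp, by simp⟩ cont_ent.continuousOn
  have hq2 : ∀ e, marginal q e = marginal p e := by simpa using hq.2
  refine ⟨q, ⟨hq.1, fun r hr h => hmax ⟨hr, ?_⟩⟩, hq2⟩
  simp only [Set.mem_iInter, Set.mem_ofPred_eq]
  exact fun e => (h e).trans (hq2 e)

lemma marg_add (p r : Finset (Fin k) → ℝ) (e : Fin k) :
    marginal (p + r) e = marginal p e + marginal r e := by
  simp [marginal, sum_add_distrib]

lemma marg_sub (p r : Finset (Fin k) → ℝ) (e : Fin k) :
    marginal (p - r) e = marginal p e - marginal r e := by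
  simp [marginal, sum_sub_distrib]

lemma marg_smul (c : ℝ) (r : Finset (Fin k) → ℝ) (e : Fin k) :
    marginal (c • r) e = c * marginal r e := by
  simp [marginal, mul_sum]

lemma closed_maxE : IsClosed {p : Finset (Fin k) → ℝ | MaxE ends p} := by
  refine isClosed_of_closure_subset fun p hp => ?_
  have hL : IsMatchingLaw ends p :=
    closed_law.closure_subset (closure_mono (fun _ h => h.1) hp)
  refine ⟨hL, fun q hq hm => ?_⟩
  have hfr := mem_closure_iff_frequently.1 hp
  have key : ∀ s : ℝ, 0 < s → s < 1 → lawEntropy (p + s • (q - p)) ≤ lawEntropy p := by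
    intro s hs0 hs1
    have hev : ∀ᶠ p' in 𝓝 p, ∀ M, p M ≠ 0 → 0 < (p' + s • (q - p)) M := by
      rw [eventually_all]
      intro M
      by_cases h : p M = 0
      · simp [h]
      · have hpos : 0 < (p + s • (q - p)) M := by
          have h1 : 0 < p M := lt_of_le_of_ne (hL.1 M) (Ne.symm h)
          have h2 := hq.1 M
          simp only [Pi.add_apply, Pi.smul_apply, Pi.sub_apply, smul_eq_mul]
          nlinarith
        have hc : Continuous fun p' : Finset (Fin k) → ℝ => (p' + s • (q - p)) M := by fun_prop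
        filter_upwards [continuous_const.continuousAt.eventually_lt hc.continuousAt hpos]
          with p' h' _ using h'
    have hfr2 : ∃ᶠ p' in 𝓝 p, p' ∈ {p' | lawEntropy (p' + s • (q - p)) ≤ lawEntropy p'} := by
      refine (hfr.and_eventually hev).mono fun p' ⟨h1, h2⟩ => h1.2 _ ⟨fun M => ?_, ?_, fun M hM => ?_⟩
        fun e => ?_
      · by_cases h : p M = 0
        · have := h1.1.1 M
          have := hq.1 M
          simp only [Pi.add_apply, Pi.smul_apply, Pi.sub_apply, smul_eq_mul, h, sub_zero]
          positivity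
        · exact (h2 M h).le
      · simp only [Pi.add_apply, Pi.smul_apply, Pi.sub_apply, smul_eq_mul, sum_add_distrib,
          ← mul_sum, sum_sub_distrib, h1.1.2.1, hq.2.1, hL.2.1]
        ring
      · by_contra hn
        have a1 : p' M = 0 := by by_contra h; exact hn (h1.1.2.2 M h)
        have a2 : q M = 0 := by by_contra h; exact hn (hq.2.2 M h)
        have a3 : p M = 0 := by by_contra h; exact hn (hL.2.2 M h)
        simp [a1, a2, a3] at hM
      · rw [marg_add, marg_smul, marg_sub, hm]; ring
    have hcl : IsClosed {p' : Finset (Fin k) → ℝ | lawEntropy (p' + s • (q - p)) ≤ lawEntropy p'} :=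
      isClosed_le (cont_ent.comp (by fun_prop)) cont_ent
    exact hcl.closure_subset (mem_closure_iff_frequently.2 hfr2)
  have hc : Continuous fun s : ℝ => lawEntropy (p + s • (q - p)) := cont_ent.comp (by fun_prop)
  have ht : Tendsto (fun s : ℝ => lawEntropy (p + s • (q - p))) (𝓝[<] 1) (𝓝 (lawEntropy q)) := by
    have := (hc.tendsto 1).mono_left (nhdsWithin_le_nhds (s := Set.Iio 1))
    simpa using this
  refine le_of_tendsto ht ?_
  filter_upwards [Ioo_mem_nhdsLT (zero_lt_one' ℝ)] with s hs using key s hs.1 hs.2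

lemma compact_maxE : IsCompact {p : Finset (Fin k) → ℝ | MaxE ends p} :=
  compact_law.of_isClosed_subset closed_maxE fun _ h => h.1

lemma law_mix {p q : Finset (Fin k) → ℝ} (hp : IsMatchingLaw ends p) (hq : IsMatchingLaw ends q)
    {t : ℝ} (h0 : 0 ≤ t) (h1 : t ≤ 1) : IsMatchingLaw ends ((1 - t) • p + t • q) := by
  refine ⟨fun M => ?_, ?_, fun M hM => ?_⟩
  · have := hp.1 M; have := hq.1 M
    have : 0 ≤ 1 - t := by linarith
    simp only [Pi.add_apply, Pi.smul_apply, smul_eq_mul]; positivity
  · simp only [Pi.add_apply, Pi.smul_apply, smul_eq_mul, sum_add_distrib, ← mul_sum, hp.2.1, hq.2.1]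
    ring
  · by_contra hn
    have a2 : q M = 0 := by by_contra h; exact hn (hq.2.2 M h)
    have a3 : p M = 0 := by by_contra h; exact hn (hp.2.2 M h)
    simp [a2, a3] at hM

/-- a maximum entropy law has maximal support -/
lemma supp_max {p q : Finset (Fin k) → ℝ} (hp : MaxE ends p) (hq : IsMatchingLaw ends q)
    (hm : ∀ e, marginal q e = marginal p e) (M : Finset (Fin k)) (hM : p M = 0) : q M = 0 := by
  by_contra hne
  have hq0 : 0 < q M := lt_of_le_of_ne (hq.1 M) (Ne.symm hne)
  set D := lawEntropy p - lawEntropy q with hD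
  have hD0 : 0 ≤ D := sub_nonneg.2 (hp.2 q hq hm)
  set t := exp (-((D + 1) / q M)) with ht
  have t0 : 0 < t := exp_pos _
  have t1 : t ≤ 1 := exp_le_one_iff.2 (by have : 0 ≤ (D + 1) / q M := by positivity
                                          linarith)
  have hle := hp.2 _ (law_mix hp.1 hq t0.le t1) fun e => by
    rw [marg_add, marg_smul, marg_smul, hm]; ring
  have hge : ∑ N, ((1 - t) * negMulLog (p N) + t * negMulLog (q N) +
      if N = M then q M * negMulLog t else 0) ≤ lawEntropy ((1 - t) • p + t • q) := by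
    refine sum_le_sum fun N _ => ?_
    split_ifs with h
    · subst h
      simp only [Pi.add_apply, Pi.smul_apply, smul_eq_mul, hM, mul_zero, zero_add, negMulLog_zero,
        negMulLog_mul]
      linarith
    · have := concaveOn_negMulLog.2 (hp.1.1 N) (hq.1 N) (by linarith : 0 ≤ 1 - t) t0.le (by ring)
      simpa using this
  simp only [sum_add_distrib, ← mul_sum, sum_ite_eq', mem_univ, if_true] at hge
  have e : negMulLog t = t * ((D + 1) / q M) := by
    simp only [negMulLog, ht, log_exp]; ring
  have e2 : q M * (t * ((D + 1) / q M)) = t * (D + 1) := by field_simp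
  rw [e, e2] at hge
  have : (1 - t) * lawEntropy p + t * lawEntropy q + t * (D + 1) ≤ lawEntropy p := hge.trans hle
  nlinarith

lemma ev_law {p r : Finset (Fin k) → ℝ} (hp : IsMatchingLaw ends p) (hr : ∀ M, p M = 0 → r M = 0)
    (h0 : ∑ M, r M = 0) : ∀ᶠ s in 𝓝 (0 : ℝ), IsMatchingLaw ends (p + s • r) := by
  have hev : ∀ᶠ s in 𝓝 (0 : ℝ), ∀ M, 0 ≤ (p + s • r) M := by
    rw [eventually_all]
    intro M
    by_cases h : p M = 0
    · simp [h, hr M h]
    · have hpos : 0 < (p + (0 : ℝ) • r) M := by
        simpa using lt_of_le_of_ne (hp.1 M) (Ne.symm h)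
      have hc : Continuous fun s : ℝ => (p + s • r) M := by fun_prop
      filter_upwards [continuous_const.continuousAt.eventually_lt hc.continuousAt hpos]
        with s h' using h'.le
  filter_upwards [hev] with s hs
  refine ⟨hs, ?_, fun M hM => ?_⟩
  · simp only [Pi.add_apply, Pi.smul_apply, smul_eq_mul, sum_add_distrib, ← mul_sum, hp.2.1, h0]
    ring
  · by_contra hn
    have a3 : p M = 0 := by by_contra h; exact hn (hp.2.2 M h)
    simp [a3, hr M a3] at hM

/-- first order condition -/
lemma first_order {p r : Finset (Fin k) → ℝ} (hp : MaxE ends p) (hr : ∀ M, p M = 0 → r M = 0)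
    (h0 : ∑ M, r M = 0) (hm : ∀ e, marginal r e = 0) : ∑ M, r M * log (p M) = 0 := by
  have hmax : IsLocalMax (fun s : ℝ => lawEntropy (p + s • r)) 0 := by
    filter_upwards [ev_law hp.1 hr h0] with s hs
    simp only [zero_smul, add_zero]
    exact hp.2 _ hs fun e => by rw [marg_add, marg_smul, hm]; ring
  have hd : HasDerivAt (fun s : ℝ => lawEntropy (p + s • r))
      (∑ M, (-log (p M) - 1) * r M) 0 := by
    unfold lawEntropy
    refine HasDerivAt.fun_sum fun M _ => ?_
    by_cases h : p M = 0
    · simp only [Pi.add_apply, Pi.smul_apply, smul_eq_mul, h, hr M h, mul_zero]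
      exact hasDerivAt_const _ _
    · have h1 : HasDerivAt (fun s : ℝ => p M + s * r M) (r M) 0 := by
        simpa using ((hasDerivAt_id (0 : ℝ)).mul_const (r M)).const_add (p M)
      have h2 : HasDerivAt negMulLog (-log (p M) - 1) (p M + 0 * r M) := by
        simpa using hasDerivAt_negMulLog h
      exact h2.comp 0 h1
  have := hmax.hasDerivAt_eq_zero hd
  simp only [sub_mul, sum_sub_distrib, one_mul, h0, neg_mul, sum_neg_distrib] at this
  simp only [mul_comm (r _)]
  linarith

lemma mem_poly_iff (x : Fin k → ℝ) :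
    x ∈ pmPolytope ends ↔ ∃ p, IsMatchingLaw ends p ∧ ∀ e, marginal p e = x e := by
  constructor
  · intro hx
    refine convexHull_min (t := {x | ∃ p, IsMatchingLaw ends p ∧ ∀ e, marginal p e = x e}) ?_ ?_ hx
    · rintro _ ⟨M, hM, rfl⟩
      refine ⟨fun N => if N = M then 1 else 0, ⟨fun N => by dsimp only; split_ifs <;> norm_num, by simp,
        fun N hN => ?_⟩, fun e => ?_⟩
      · have : N = M := by by_contra h; simp [h] at hN
        exact this ▸ hM
      · rw [marg_eq]; simp
    · rintro x ⟨p, hp, hx⟩ y ⟨q, hq, hy⟩ a b ha hb hab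
      have : a = 1 - b := by linarith
      subst this
      refine ⟨_, law_mix hp hq hb (by linarith), fun e => ?_⟩
      rw [marg_add, marg_smul, marg_smul, hx, hy]; simp
  · rintro ⟨p, hp, hx⟩
    classical
    have e : x = ∑ M ∈ univ.filter (fun M => p M ≠ 0), p M • pmIndicator M := by
      funext e
      rw [← hx, marg_eq, Finset.sum_apply, sum_filter]
      refine sum_congr rfl fun M _ => ?_
      split_ifs with h
      · simp
      · simp [not_not.1 h]
    rw [e]
    refine (convex_convexHull ℝ _).sum_mem (fun M _ => hp.1 M) ?_ fun M hM => ?_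
    · rw [← hp.2.1, sum_filter_ne_zero]
    · exact subset_convexHull ℝ _ ⟨M, hp.2.2 M (mem_filter.1 hM).2, rfl⟩

lemma card_pm {m : ℕ} {ends : Fin k → Fin (2 * m) × Fin (2 * m)}
    (hends : ∀ e, (ends e).1 ≠ (ends e).2) {M : Finset (Fin k)} (hM : IsPerfectMatching ends M) :
    M.card = m := by
  have h1 : ∑ w : Fin (2 * m), (M.filter fun e => (ends e).1 = w ∨ (ends e).2 = w).card = 2 * m := by
    simp [hM _]
  have h2 : ∑ w : Fin (2 * m), (M.filter fun e => (ends e).1 = w ∨ (ends e).2 = w).card =
      ∑ e ∈ M, 2 := by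
    simp only [card_filter]
    rw [sum_comm]
    refine sum_congr rfl fun e _ => ?_
    rw [← card_filter]
    have : (univ.filter fun w => (ends e).1 = w ∨ (ends e).2 = w) = {(ends e).1, (ends e).2} := by
      ext w; simp [eq_comm]
    rw [this, card_pair (hends e)]
  rw [h2] at h1
  simp at h1
  omega

lemma sum_marg {m : ℕ} {ends : Fin k → Fin (2 * m) × Fin (2 * m)}
    (hends : ∀ e, (ends e).1 ≠ (ends e).2) {p : Finset (Fin k) → ℝ} (hp : IsMatchingLaw ends p) :
    ∑ e, marginal p e = m := by
  simp only [marg_eq]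
  rw [sum_comm]
  have : ∀ M, ∑ e, p M * pmIndicator M e = p M * m := by
    intro M
    by_cases h : p M = 0
    · simp [h]
    · rw [← mul_sum, ← card_pm hends (hp.2.2 M h)]
      simp [pmIndicator]
  simp only [this, ← sum_mul, hp.2.1, one_mul]

end Crest.Agent.R304E
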