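import Crest.Agent.R304E.Sec

/-! S0465 from the rank bound. -/

set_option autoImplicit false

namespace Crest.Agent.R304E

open Crest.Matchings Finset Filter Topology Real
open scoped RealInnerProductSpace

lemma trace_bound {E ι : Type} [NormedAddCommGroup E] [InnerProductSpace ℝ E]
    [FiniteDimensional ℝ E] [Fintype ι] (φ : ι → E) (D : ι → ℝ) (S : Finset ι) (U : Set (ι → ℝ))
    (h1 : ∀ a : ι → ℝ, ‖∑ e, a e • φ e‖ ^ 2 ≤ ∑ e ∈ S, ⟪φ e, ∑ e, a e • φ e⟫ ^ 2 * D e)
    (h2 : ∀ h ∈ U, ∃ w : E, ∀ e, h e = ⟪φ e, w⟫) :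
    (Module.finrank ℝ (Submodule.span ℝ U) : ℝ) ≤ ∑ e ∈ S, ‖φ e‖ ^ 2 * D e := by
  set W := Submodule.span ℝ (Set.range φ) with hW
  have hφ : ∀ e, φ e ∈ W := fun e => Submodule.subset_span ⟨e, rfl⟩
  let T : W →ₗ[ℝ] (ι → ℝ) :=
    { toFun := fun w e => ⟪φ e, (w : E)⟫
      map_add' := fun x y => by funext e; simp [inner_add_right]
      map_smul' := fun c x => by funext e; simp [inner_smul_right] }
  have a1 : Submodule.span ℝ U ≤ LinearMap.range T := by
    rw [Submodule.span_le]
    intro h hh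
    obtain ⟨w, hw⟩ := h2 h hh
    refine ⟨W.orthogonalProjectionOnto w, funext fun e => ?_⟩
    rw [hw]
    exact Submodule.inner_orthogonalProjectionOnto_eq_of_mem_left (K := W) ⟨φ e, hφ e⟩ w
  have a2 : Module.finrank ℝ (Submodule.span ℝ U) ≤ Module.finrank ℝ W :=
    (Submodule.finrank_mono a1).trans (LinearMap.finrank_range_le T)
  set b := stdOrthonormalBasis ℝ W with hb
  have a3 : ∀ j, (1 : ℝ) ≤ ∑ e ∈ S, ⟪φ e, (b j : E)⟫ ^ 2 * D e := by
    intro j
    obtain ⟨a, ha⟩ := (Submodule.mem_span_range_iff_exists_fun ℝ).1 (b j).2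
    have := h1 a
    rw [ha] at this
    have hn : ‖(b j : E)‖ = 1 := b.orthonormal.1 j
    rwa [hn, one_pow] at this
  have a4 : ∀ e, ∑ j, ⟪φ e, (b j : E)⟫ ^ 2 = ‖φ e‖ ^ 2 := fun e =>
    b.sum_sq_inner_left ⟨φ e, hφ e⟩
  calc (Module.finrank ℝ (Submodule.span ℝ U) : ℝ) ≤ Module.finrank ℝ W := by exact_mod_cast a2
    _ = ∑ _j : Fin (Module.finrank ℝ W), (1 : ℝ) := by simp
    _ ≤ ∑ j, ∑ e ∈ S, ⟪φ e, (b j : E)⟫ ^ 2 * D e := sum_le_sum fun j _ => a3 j
    _ = _ := by
      rw [sum_comm]
      exact sum_congr rfl fun e _ => by rw [← sum_mul, a4]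

variable {v k : ℕ} {ends : Fin k → Fin v × Fin v}

lemma dim_le {p : Finset (Fin k) → ℝ} (hp : MaxE ends p) (c : ℝ)
    (hmin : ∀ q, MaxE ends q → Gam c p ≤ Gam c q) :
    (pmFaceDim ends (fun e => marginal p e) : ℝ) ≤
      ∑ e ∈ univ.filter (fun e => 0 < marginal p e ∧ marginal p e < 1),
        (1 - marginal p e - c * marginal p e) := by
  let φ : Fin k → EuclideanSpace ℝ (Finset (Fin k)) :=
    fun e => WithLp.toLp 2 fun M => √(p M) * dev p M e
  have hsq : ∀ M, √(p M) * √(p M) = p M := fun M => mul_self_sqrt (hp.1.1 M)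
  have hin : ∀ e (w : EuclideanSpace ℝ (Finset (Fin k))),
      ⟪φ e, w⟫ = ∑ M, √(p M) * dev p M e * w M := by
    intro e w
    simp only [PiLp.inner_apply, φ]
    exact sum_congr rfl fun M _ => by simp [mul_comm]
  have key := trace_bound φ (fun e => 1 / marginal p e - c / (1 - marginal p e))
    (univ.filter (fun e => 0 < marginal p e ∧ marginal p e < 1))
    (pmDirections ends fun e => marginal p e) (fun a => by
      have hw : ∀ M, (∑ e, a e • φ e) M = √(p M) * ∑ e, a e * dev p M e := by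
        intro M
        simp only [φ, WithLp.ofLp_sum, WithLp.ofLp_smul, Finset.sum_apply, Pi.smul_apply,
          smul_eq_mul, mul_sum]
        exact sum_congr rfl fun e _ => by ring
      have := second_order hp c hmin a (fun M => ∑ e, a e * dev p M e) (fun _ => rfl)
        (fun e => ⟪φ e, ∑ e, a e • φ e⟫) (fun e => by
          rw [hin]
          refine sum_congr rfl fun M _ => ?_
          rw [hw]
          linear_combination (dev p M e * ∑ e, a e * dev p M e) * hsq M)
      refine le_trans (le_of_eq ?_) this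
      rw [EuclideanSpace.real_norm_sq_eq]
      refine sum_congr rfl fun M _ => ?_
      rw [hw]
      linear_combination (∑ e, a e * dev p M e) ^ 2 * hsq M) (by
      rintro h ⟨ε, hε, hh⟩
      obtain ⟨q₁, hq₁, m₁⟩ := (mem_poly_iff _).1 (hh (ε / 2) (by rw [abs_of_pos] <;> linarith))
      obtain ⟨q₂, hq₂, m₂⟩ := (mem_poly_iff _).1
        (hh (-(ε / 2)) (by rw [abs_neg, abs_of_pos] <;> linarith))
      have hs : ∀ M, p M = 0 → q₁ M = 0 := by
        intro M hM
        have := supp_max hp (law_mix hq₁ hq₂ (t := 1 / 2) (by norm_num) (by norm_num)) (fun e => by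
          rw [marg_add, marg_smul, marg_smul, m₁, m₂]; simp; ring) M hM
        simp only [Pi.add_apply, Pi.smul_apply, smul_eq_mul] at this
        linarith [hq₁.1 M, hq₂.1 M]
      refine ⟨WithLp.toLp 2 fun M => q₁ M / (ε / 2 * √(p M)), fun e => ?_⟩
      rw [hin]
      have e1 : ∀ M, √(p M) * dev p M e * (q₁ M / (ε / 2 * √(p M))) =
          q₁ M * dev p M e / (ε / 2) := by
        intro M
        by_cases hM : p M = 0
        · simp [hM, hs M hM]
        · have : √(p M) ≠ 0 := (sqrt_pos.2 (lt_of_le_of_ne (hp.1.1 M) (Ne.symm hM))).ne'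
          field_simp
      simp only [e1, ← sum_div, sum_dev, hq₁.2.1, m₁, Pi.add_apply, Pi.smul_apply, smul_eq_mul]
      field_simp
      ring)
  refine key.trans (le_of_eq (sum_congr rfl fun e he => ?_))
  have he' := (mem_filter.1 he).2
  have hn : ‖φ e‖ ^ 2 = marginal p e * (1 - marginal p e) := by
    rw [EuclideanSpace.real_norm_sq_eq]
    have : ∀ M, (φ e M) ^ 2 = (1 - 2 * marginal p e) * (p M * pmIndicator M e) +
        marginal p e ^ 2 * p M := by
      intro M
      simp only [φ, dev]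
      linear_combination (pmIndicator M e - marginal p e) ^ 2 * hsq M + p M * ind_sq M e
    simp only [this, sum_add_distrib, ← mul_sum, ← marg_eq, hp.1.2.1]
    ring
  have h1 : marginal p e ≠ 0 := he'.1.ne'
  have h2 : 1 - marginal p e ≠ 0 := (sub_pos.2 he'.2).ne'
  rw [hn]
  field_simp

lemma gam_nonneg (hR : RankStmt) {m : ℕ} (hm : 1 ≤ m) {ends : Fin k → Fin (2 * m) × Fin (2 * m)}
    (hends : ∀ e, (ends e).1 ≠ (ends e).2) {c : ℝ} (hc : 2 - 2 / (m : ℝ) < c)
    {q : Finset (Fin k) → ℝ} (hq : MaxE ends q) : 0 ≤ Gam c q := by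
  have hcont : Continuous fun p : Finset (Fin k) → ℝ => Gam c p := by
    unfold Gam
    have := fun e : Fin k => cont_marg e
    exact (cont_ent.sub (by fun_prop)).add (by fun_prop)
  obtain ⟨p, hp, hmin⟩ := (compact_maxE (ends := ends)).exists_isMinOn ⟨q, hq⟩ hcont.continuousOn
  have hp' : MaxE ends p := hp
  refine le_trans ?_ (hmin hq)
  by_cases hF : ∃ e, 0 < marginal p e ∧ marginal p e < 1
  · exfalso
    have h1 := dim_le hp' c fun r hr => hmin hr
    have h2 := hR m k ends hends (fun e => marginal p e)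
      ((mem_poly_iff _).2 ⟨p, hp'.1, fun _ => rfl⟩) hF
    set Fr := univ.filter (fun e => 0 < marginal p e ∧ marginal p e < 1) with hFr
    set I1 := univ.filter (fun e => marginal p e = 1) with hI
    have h3 : ∑ e ∈ Fr, marginal p e + I1.card = m := by
      rw [← sum_marg hends hp'.1, hFr, hI, card_filter, sum_filter]
      push_cast
      rw [← sum_add_distrib]
      refine sum_congr rfl fun e _ => ?_
      have a0 := marg_nonneg hp'.1 e
      have a1 := marg_le_one hp'.1 e
      by_cases b1 : marginal p e = 1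
      · simp [b1]
      · by_cases b0 : marginal p e = 0
        · simp [b0]
        · simp [b1, lt_of_le_of_ne a0 (Ne.symm b0), lt_of_le_of_ne a1 b1]
    set X := ∑ e ∈ Fr, marginal p e with hX
    have h4 : 0 < X := by
      obtain ⟨e, he⟩ := hF
      exact sum_pos (fun e he => (mem_filter.1 he).2.1) ⟨e, mem_filter.2 ⟨mem_univ _, he⟩⟩
    have h5 : ∑ e ∈ Fr, (1 - marginal p e - c * marginal p e) = Fr.card - X - c * X := by
      simp [sum_sub_distrib, ← mul_sum, hX]
    have h2' : (Fr.card : ℝ) - (pmFaceDim ends fun e => marginal p e) ≤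
        3 * ((m : ℝ) - I1.card) - 2 := by exact_mod_cast h2
    have hm' : (0 : ℝ) < m := by exact_mod_cast hm
    have h6 : X ≤ m := by have : (0 : ℝ) ≤ I1.card := Nat.cast_nonneg _
                          linarith
    have h7 : 2 / (m : ℝ) * X ≤ 2 := by
      rw [div_mul_eq_mul_div, div_le_iff₀ hm']; linarith
    have h8 := mul_lt_mul_of_pos_right hc h4
    rw [h5] at h1
    nlinarith
  · have hz : ∀ e, negMulLog (marginal p e) = 0 ∧ negMulLog (1 - marginal p e) = 0 := by
      intro e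
      have a0 := marg_nonneg hp'.1 e
      have a1 := marg_le_one hp'.1 e
      by_cases b1 : marginal p e = 1
      · simp [b1]
      · by_cases b0 : marginal p e = 0
        · simp [b0]
        · exact absurd ⟨e, lt_of_le_of_ne a0 (Ne.symm b0), lt_of_le_of_ne a1 b1⟩ hF
    simp only [Gam, (hz _).1, (hz _).2, sum_const_zero, sub_zero, mul_zero, add_zero]
    exact ent_nonneg hp'.1

theorem s0465_of (hR : RankStmt) (m : ℕ) (hm : 1 ≤ m) (k : ℕ)
    (ends : Fin k → Fin (2 * m) × Fin (2 * m)) (hends : ∀ e, (ends e).1 ≠ (ends e).2)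
    (p : Finset (Fin k) → ℝ) (hp : IsMatchingLaw ends p) :
    ∃ q : Finset (Fin k) → ℝ, IsMatchingLaw ends q ∧ (∀ e, marginal q e = marginal p e) ∧
      ∑ e, Real.negMulLog (marginal p e) -
        (2 - 2 / (m : ℝ)) * ∑ e, Real.negMulLog (1 - marginal p e) ≤ lawEntropy q := by
  obtain ⟨q, hq, hmq⟩ := exists_maxE hp
  refine ⟨q, hq.1, hmq, ?_⟩
  have hc : Continuous fun c : ℝ => Gam c q := by unfold Gam; fun_prop
  have ht := (hc.tendsto (2 - 2 / (m : ℝ))).mono_left
    (nhdsWithin_le_nhds (s := Set.Ioi (2 - 2 / (m : ℝ))))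
  have := ge_of_tendsto ht (b := 0) (by
    filter_upwards [self_mem_nhdsWithin] with c hc using gam_nonneg hR hm hends hc hq)
  simp only [Gam, hmq] at this
  linarith

end Crest.Agent.R304E
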