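import Crest.Agent.R304E.Law
import Crest.Agent.R304E.Calc

/-! Second order condition at a minimiser of `Ent - F + c B` among maximum entropy laws. -/

set_option autoImplicit false

namespace Crest.Agent.R304E

open Crest.Matchings Finset Filter Topology Real

variable {v k : ℕ} {ends : Fin k → Fin v × Fin v}

noncomputable def Gam (c : ℝ) (p : Finset (Fin k) → ℝ) : ℝ :=
  lawEntropy p - ∑ e, negMulLog (marginal p e) + c * ∑ e, negMulLog (1 - marginal p e)

def dev (p : Finset (Fin k) → ℝ) (M : Finset (Fin k)) (e : Fin k) : ℝ :=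
  pmIndicator M e - marginal p e

lemma sum_dev (p u : Finset (Fin k) → ℝ) (e : Fin k) :
    ∑ M, u M * dev p M e = marginal u e - (∑ M, u M) * marginal p e := by
  simp only [dev, mul_sub, sum_sub_distrib, ← sum_mul, marg_eq u]

lemma sum_g (p u : Finset (Fin k) → ℝ) (a : Fin k → ℝ) :
    ∑ M, u M * ∑ e, a e * dev p M e =
      ∑ e, a e * (marginal u e - (∑ M, u M) * marginal p e) := by
  simp only [← sum_dev, mul_sum]
  rw [sum_comm]
  exact sum_congr rfl fun e _ => sum_congr rfl fun M _ => by ring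

lemma dev_zero {p : Finset (Fin k) → ℝ} (hp : IsMatchingLaw ends p) {e : Fin k}
    (he : ¬ (0 < marginal p e ∧ marginal p e < 1)) (M : Finset (Fin k)) : p M * dev p M e = 0 := by
  have h0 := marg_nonneg hp e
  have h1 := marg_le_one hp e
  have hs : ∑ N, p N * dev p N e = 0 := by rw [sum_dev, hp.2.1]; ring
  by_cases h : marginal p e = 0
  · refine (sum_eq_zero_iff_of_nonneg fun N _ => ?_).1 hs M (mem_univ _)
    exact mul_nonneg (hp.1 N) (by rw [dev, h, sub_zero]; exact ind_nonneg N e)
  · have h' : marginal p e = 1 := by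
      by_contra h''
      exact he ⟨lt_of_le_of_ne h0 (Ne.symm h), lt_of_le_of_ne h1 h''⟩
    refine (sum_eq_zero_iff_of_nonpos fun N _ => ?_).1 hs M (mem_univ _)
    exact mul_nonpos_of_nonneg_of_nonpos (hp.1 N)
      (by rw [dev, h']; linarith [ind_le_one N e])

lemma gibbs_pt {p q u : ℝ} (hp : 0 ≤ p) (hq : 0 ≤ q) (h : p = 0 → q = 0) :
    negMulLog q ≤ -(q * log p) - q * u + (p * exp u - q) := by
  rcases hp.eq_or_lt with h0 | h0
  · simp [← h0, h h0.symm]
  rcases hq.eq_or_lt with h1 | h1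
  · subst h1; simp; positivity
  have hν : 0 < p * exp u / q := by positivity
  have := Real.log_le_sub_one_of_pos hν
  rw [log_div (by positivity) h1.ne', log_mul h0.ne' (exp_pos u).ne', log_exp] at this
  have h2 := mul_le_mul_of_nonneg_left this hq
  have e : q * (p * exp u / q - 1) = p * exp u - q := by field_simp
  rw [e] at h2
  simp only [negMulLog]
  linarith

lemma gibbs {p q : Finset (Fin k) → ℝ} (hp : MaxE ends p) (a : Fin k → ℝ) (s : ℝ)
    (g : Finset (Fin k) → ℝ) (hg : ∀ M, g M = ∑ e, a e * dev p M e)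
    (h2 : IsMatchingLaw ends (p + (-s) • fun M => p M * g M)) (hq : IsMatchingLaw ends q)
    (hm : ∀ e, marginal q e = marginal (p + s • fun M => p M * g M) e) :
    lawEntropy q ≤ lawEntropy p - s * ∑ M, p M * g M * log (p M) - s ^ 2 * ∑ M, p M * g M ^ 2 +
      (∑ M, p M * exp (s * g M) - 1) := by
  have hg0 : ∑ M, p M * g M = 0 := by
    simp only [hg, sum_g, hp.1.2.1]; simp
  have hs : ∀ M, p M = 0 → q M = 0 := by
    intro M hM
    have := supp_max hp (law_mix hq h2 (t := 1 / 2) (by norm_num) (by norm_num)) (fun e => by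
      rw [marg_add, marg_smul, marg_smul, hm, marg_add, marg_add, marg_smul, marg_smul]; ring) M hM
    simp only [Pi.add_apply, Pi.smul_apply, smul_eq_mul, hM] at this
    linarith
  have hsum : ∑ M, (p + s • fun M => p M * g M) M = 1 := by
    simp only [Pi.add_apply, Pi.smul_apply, smul_eq_mul, sum_add_distrib, ← mul_sum, hg0,
      hp.1.2.1]; ring
  have f1 := first_order hp (r := q - (p + s • fun M => p M * g M))
    (fun M hM => by simp [hM, hs M hM])
    (by simp only [Pi.sub_apply, sum_sub_distrib, hsum, hq.2.1]; ring)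
    (fun e => by rw [marg_sub, hm]; ring)
  have f2 : ∑ M, q M * g M = ∑ M, (p + s • fun M => p M * g M) M * g M := by
    have a1 := sum_g p q a
    have a2 := sum_g p (p + s • fun M => p M * g M) a
    simp only [← hg] at a1 a2
    rw [a1, a2, hsum, hq.2.1]
    simp only [hm]
  have f3 : ∑ M, (p + s • fun M => p M * g M) M * g M = s * ∑ M, p M * g M ^ 2 := by
    simp only [Pi.add_apply, Pi.smul_apply, smul_eq_mul, add_mul, sum_add_distrib, hg0, mul_sum,
      zero_add]
    exact sum_congr rfl fun M _ => by ring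
  have f4 : ∑ M, q M * log (p M) = -lawEntropy p + s * ∑ M, p M * g M * log (p M) := by
    simp only [Pi.sub_apply, Pi.add_apply, Pi.smul_apply, smul_eq_mul, sub_mul, add_mul,
      sum_sub_distrib, sum_add_distrib, mul_assoc s, ← mul_sum] at f1
    have : lawEntropy p = -∑ M, p M * log (p M) := by
      simp [lawEntropy, negMulLog]
    linarith
  have f5 : lawEntropy q ≤
      ∑ M, (-(q M * log (p M)) - q M * (s * g M) + (p M * exp (s * g M) - q M)) :=
    sum_le_sum fun M _ => gibbs_pt (hp.1.1 M) (hq.1 M) (hs M)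
  have f6 : ∑ M, q M * (s * g M) = s * ∑ M, q M * g M := by
    rw [mul_sum]; exact sum_congr rfl fun M _ => by ring
  simp only [sum_add_distrib, sum_sub_distrib, sum_neg_distrib, f4, f6, f2, f3, hq.2.1] at f5
  linarith

lemma second_order {p : Finset (Fin k) → ℝ} (hp : MaxE ends p) (c : ℝ)
    (hmin : ∀ q, MaxE ends q → Gam c p ≤ Gam c q) (a : Fin k → ℝ)
    (g : Finset (Fin k) → ℝ) (hg : ∀ M, g M = ∑ e, a e * dev p M e)
    (h : Fin k → ℝ) (hh : ∀ e, h e = ∑ M, p M * g M * dev p M e) :
    ∑ M, p M * g M ^ 2 ≤ ∑ e ∈ univ.filter (fun e => 0 < marginal p e ∧ marginal p e < 1),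
      h e ^ 2 * (1 / marginal p e - c / (1 - marginal p e)) := by
  set Fr := univ.filter (fun e => 0 < marginal p e ∧ marginal p e < 1) with hFr
  have hg0 : ∑ M, p M * g M = 0 := by
    simp only [hg, sum_g, hp.1.2.1]; simp
  have hm : ∀ (s : ℝ) e, marginal (p + s • fun M => p M * g M) e = marginal p e + s * h e := by
    intro s e
    rw [marg_add, marg_smul, hh, sum_dev p (fun M => p M * g M), hg0]; ring
  have hz : ∀ e, e ∉ Fr → h e = 0 := by
    intro e he
    rw [hh]
    refine sum_eq_zero fun M _ => ?_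
    have := dev_zero hp.1 (e := e) (by simpa [hFr] using he) M
    calc _ = g M * (p M * dev p M e) := by ring
      _ = 0 := by rw [this, mul_zero]
  have ev1 := ev_law hp.1 (r := fun M => p M * g M) (fun M hM => by simp [hM]) hg0
  have ev2 : ∀ᶠ s in 𝓝 (0 : ℝ), IsMatchingLaw ends (p + (-s) • fun M => p M * g M) := by
    have : Tendsto (fun s : ℝ => -s) (𝓝 0) (𝓝 0) := by simpa using (continuous_neg.tendsto (0 : ℝ))
    exact this.eventually ev1
  set Φ : ℝ → ℝ := fun t => -2 * ∑ M, p M * g M ^ 2 +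
    ∑ M, p M * ((exp (t * g M) + exp (-(t * g M)) - 2) / t ^ 2) -
    ∑ e ∈ Fr, (negMulLog (marginal p e + t * h e) + negMulLog (marginal p e - t * h e) -
      2 * negMulLog (marginal p e)) / t ^ 2 +
    c * ∑ e ∈ Fr, (negMulLog (1 - marginal p e + t * h e) + negMulLog (1 - marginal p e - t * h e) -
      2 * negMulLog (1 - marginal p e)) / t ^ 2 with hΦ
  have hlim : Tendsto Φ (𝓝[>] 0) (𝓝 (-2 * ∑ M, p M * g M ^ 2 + ∑ M, p M * g M ^ 2 -
      ∑ e ∈ Fr, -(h e ^ 2 / marginal p e) + c * ∑ e ∈ Fr, -(h e ^ 2 / (1 - marginal p e)))) := by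
    refine ((tendsto_const_nhds.add (tendsto_finsetSum _ fun M _ =>
      (tendsto_exp_sd (g M)).const_mul _)).sub (tendsto_finsetSum _ fun e he => ?_)).add
      ((tendsto_finsetSum _ fun e he => ?_).const_mul c)
    · exact tendsto_nml_sd _ _ (mem_filter.1 he).2.1
    · exact tendsto_nml_sd _ _ (sub_pos.2 (mem_filter.1 he).2.2)
  have hpos : ∀ᶠ t in 𝓝[>] (0 : ℝ), 0 ≤ Φ t := by
    filter_upwards [nhdsWithin_le_nhds ev1, nhdsWithin_le_nhds ev2, self_mem_nhdsWithin]
      with t h1 h2 ht
    have ht' : 0 < t := ht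
    obtain ⟨q₁, hq₁, m₁⟩ := exists_maxE h1
    obtain ⟨q₂, hq₂, m₂⟩ := exists_maxE h2
    have b1 := gibbs hp a t g hg h2 hq₁.1 m₁
    have b2 := gibbs hp a (-t) g hg (by rw [neg_neg]; exact h1) hq₂.1 m₂
    have c1 := hmin q₁ hq₁
    have c2 := hmin q₂ hq₂
    simp only [Gam, m₁, m₂, hm] at c1 c2
    have s1 : ∑ e ∈ Fr, (negMulLog (marginal p e + t * h e) + negMulLog (marginal p e - t * h e) -
        2 * negMulLog (marginal p e)) = ∑ e, negMulLog (marginal p e + t * h e) +
        ∑ e, negMulLog (marginal p e + -t * h e) - 2 * ∑ e, negMulLog (marginal p e) := by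
      rw [mul_sum, ← sum_add_distrib, ← sum_sub_distrib]
      refine sum_subset_zero_on_sdiff (subset_univ _) (fun e he => ?_) fun e _ => ?_
      · rw [hz e (mem_sdiff.1 he).2]; simp only [mul_zero, add_zero]; ring
      · rw [neg_mul, ← sub_eq_add_neg]
    have s2 : ∑ e ∈ Fr, (negMulLog (1 - marginal p e + t * h e) +
        negMulLog (1 - marginal p e - t * h e) - 2 * negMulLog (1 - marginal p e)) =
        ∑ e, negMulLog (1 - (marginal p e + -t * h e)) +
        ∑ e, negMulLog (1 - (marginal p e + t * h e)) - 2 * ∑ e, negMulLog (1 - marginal p e) := by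
      rw [mul_sum, ← sum_add_distrib, ← sum_sub_distrib]
      refine sum_subset_zero_on_sdiff (subset_univ _) (fun e he => ?_) fun e _ => ?_
      · rw [hz e (mem_sdiff.1 he).2]; simp only [mul_zero, add_zero]; ring
      · congr 3 <;> ring
    have s3 : ∑ M, p M * ((exp (t * g M) + exp (-(t * g M)) - 2) / t ^ 2) =
        (∑ M, p M * exp (t * g M) + ∑ M, p M * exp (-t * g M) - 2) / t ^ 2 := by
      have : (2 : ℝ) = ∑ M, p M * 2 := by rw [← sum_mul, hp.1.2.1, one_mul]
      rw [this, ← sum_add_distrib, ← sum_sub_distrib, sum_div, ← this]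
      exact sum_congr rfl fun M _ => by rw [neg_mul]; ring
    simp only [hΦ, ← sum_div, s1, s2, s3]
    have e : ∀ A B C D : ℝ, -2 * A + B / t ^ 2 - C / t ^ 2 + c * (D / t ^ 2) =
        (-2 * t ^ 2 * A + B - C + c * D) / t ^ 2 := by
      intro A B C D; field_simp
    rw [e]
    refine div_nonneg ?_ (by positivity)
    nlinarith
  have := ge_of_tendsto hlim hpos
  simp only [sum_neg_distrib] at this
  have e : ∑ e ∈ Fr, h e ^ 2 * (1 / marginal p e - c / (1 - marginal p e)) =
      ∑ e ∈ Fr, h e ^ 2 / marginal p e - c * ∑ e ∈ Fr, h e ^ 2 / (1 - marginal p e) := by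
    rw [mul_sum, ← sum_sub_distrib]
    exact sum_congr rfl fun e _ => by ring
  rw [e]
  linarith

end Crest.Agent.R304E
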